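import Vale.Agent.P249.TP.Abs

/-!
# P249 phase 3, block BLOCK3: absorption of a rank one tensor by a random tensor train

Everything is stated for an additive map `ι` from frames to `V I`; no splitting of `Fin k`.
-/

open Finset
open scoped BigOperators

namespace Vale.Agent.P249.H200

open Vale.Agent.P249.TP

/-- ABS for arbitrary finite groups isomorphic to `V α`, `V J` -/
theorem abs_gen (hAbs : SpecAbs) (r : ℝ) (hr : 2 < r) : ∃ c C : ℝ, 0 < c ∧ 0 < C ∧
    ∀ (s : ℕ), 1 ≤ s → ∀ (A B α J I : Type) [AddCommGroup A] [Fintype A] [AddCommGroup B]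
      [Fintype B] [Fintype α] [DecidableEq α] [Fintype J] [DecidableEq J]
      (_ : A ≃+ V α) (_ : B ≃+ V J)
      (θ : A →+ B →+ V I) (ξ₀ : V I) (g : V I → ℝ) (D η : ℝ), 0 ≤ η →
      (∀ (a : Fin (s + 1) → A) (c : Fin (s + 1) → B), |g (ξ₀ + ∑ j, θ (a j) (c j))| ≤ D) →
      (∀ b : ℕ, b ≤ 2 * s + 1 → ∀ (u : Fin b → A) (v : Fin b → B)
        (ω : V (Fin b × Fin b) → ℝ),
        |∑ Z, ω Z * g (ξ₀ + ∑ a : Fin b × Fin b, Z a • θ (u a.1) (v a.2))| ≤
          D * (∑ z, |hat ω z| ^ r) ^ (1 / r) + η * ∑ Z, |ω Z|) →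
      ∀ (x : A) (y : B),
        |av (fun q : (Fin s → A) × (Fin s → B) => g (ξ₀ + θ x y + ∑ j, θ (q.1 j) (q.2 j))) -
          av (fun q : (Fin s → A) × (Fin s → B) => g (ξ₀ + ∑ j, θ (q.1 j) (q.2 j)))| ≤
          C * D * (2 : ℝ) ^ (-c * s) + 2 * η := by
  obtain ⟨c, C, hc, hC, h⟩ := hAbs r hr
  refine ⟨c, C, hc, hC, ?_⟩
  intro s hs A B α J I _ _ _ _ _ _ _ _ eA eB θ ξ₀ g D η hη hD hkey x y
  set θ' : V α →+ V J →+ V I :=
    { toFun := fun a => (θ (eA.symm a)).comp eB.symm.toAddMonoidHom
      map_zero' := by ext; simp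
      map_add' := by intro a b; ext; simp } with hθ'
  have hθ : ∀ a c, θ' a c = θ (eA.symm a) (eB.symm c) := fun a c => rfl
  have h1 := h s hs α J I θ' ξ₀ g D η hη (fun a c => by
      simp only [hθ]; exact hD _ _) (fun b hb u v ω => by
      have := hkey b hb (fun i => eA.symm (u i)) (fun i => eB.symm (v i)) ω
      simpa only [bil, hθ] using this) (eA x) (eB y)
  rw [av_sub] at h1
  simp only [hθ, AddEquiv.symm_apply_apply] at h1
  have e1 : av (fun q : (Fin s → V α) × (Fin s → V J) =>
      g (ξ₀ + θ x y + ∑ j, θ (eA.symm (q.1 j)) (eB.symm (q.2 j)))) =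
      av (fun q : (Fin s → A) × (Fin s → B) => g (ξ₀ + θ x y + ∑ j, θ (q.1 j) (q.2 j))) :=
    av_equiv ((Equiv.arrowCongr (Equiv.refl _) eA.symm.toEquiv).prodCongr
      (Equiv.arrowCongr (Equiv.refl _) eB.symm.toEquiv))
      (fun q : (Fin s → A) × (Fin s → B) => g (ξ₀ + θ x y + ∑ j, θ (q.1 j) (q.2 j)))
  have e2 : av (fun q : (Fin s → V α) × (Fin s → V J) =>
      g (ξ₀ + ∑ j, θ (eA.symm (q.1 j)) (eB.symm (q.2 j)))) =
      av (fun q : (Fin s → A) × (Fin s → B) => g (ξ₀ + ∑ j, θ (q.1 j) (q.2 j))) :=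
    av_equiv ((Equiv.arrowCongr (Equiv.refl _) eA.symm.toEquiv).prodCongr
      (Equiv.arrowCongr (Equiv.refl _) eB.symm.toEquiv))
      (fun q : (Fin s → A) × (Fin s → B) => g (ξ₀ + ∑ j, θ (q.1 j) (q.2 j)))
  rw [e1, e2] at h1
  exact h1

section frames

variable {F N : Type} [Field F]

/-- tensors with `k` modes -/
abbrev TT (F N : Type) (k : ℕ) := (Fin k → N) → F

/-- the action of a core -/
def act {M M' : Type} [Fintype M'] {k : ℕ} (A : M → M' → N → F) (Y : M' → TT F N k) :
    M → TT F N (k + 1) := fun m i => ∑ m', A m m' (i 0) * Y m' (Fin.tail i)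

/-- the last vector -/
def e0 (s : ℕ) : Fin (s + 1) → TT F N 0 := fun j _ => if j = 0 then 1 else 0

/-- rank one tensor -/
def tns {k : ℕ} (x : Fin k → N → F) : TT F N k := fun i => ∏ l, x l (i l)

/-- the frame with the rank one tensor in place `0` -/
def yx (s : ℕ) {k : ℕ} (x : Fin k → N → F) : Fin (s + 1) → TT F N k :=
  fun j => if j = 0 then tns x else 0

lemma act_add {M M' : Type} [Fintype M'] {k : ℕ} (A : M → M' → N → F) (Y Y' : M' → TT F N k) :
    act A (Y + Y') = act A Y + act A Y' := by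
  funext m i
  simp [act, mul_add, Finset.sum_add_distrib]

lemma act_zero {M M' : Type} [Fintype M'] {k : ℕ} (A : M → M' → N → F) :
    act A (0 : M' → TT F N k) = 0 := by
  funext m i
  simp [act]

lemma act_add_left {M M' : Type} [Fintype M'] {k : ℕ} (A A' : M → M' → N → F)
    (Y : M' → TT F N k) : act (A + A') Y = act A Y + act A' Y := by
  funext m i
  simp [act, add_mul, Finset.sum_add_distrib]

/-- the action of a core as an additive map -/
def actHom {M M' : Type} [Fintype M'] (k : ℕ) (A : M → M' → N → F) :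
    (M' → TT F N k) →+ (M → TT F N (k + 1)) where
  toFun := act A
  map_zero' := act_zero A
  map_add' := act_add A

variable [Fintype F] [DecidableEq F] [Fintype N] [DecidableEq N]

/-- average over a random frame -/
noncomputable def Eav (s : ℕ) : (k : ℕ) → ((Fin (s + 1) → TT F N k) → ℝ) → ℝ
  | 0, h => h (e0 s)
  | k + 1, h => av (fun A : Fin (s + 1) → Fin (s + 1) → N → F => Eav s k (fun Y => h (act A Y)))

/-- the random frames -/
inductive IsFr (s : ℕ) : (k : ℕ) → (Fin (s + 1) → TT F N k) → Prop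
  | zero : IsFr s 0 (e0 s)
  | succ (k : ℕ) (A : Fin (s + 1) → Fin (s + 1) → N → F) (Y : Fin (s + 1) → TT F N k) :
      IsFr s k Y → IsFr s (k + 1) (act A Y)

lemma Eav_le (s : ℕ) (e : ℝ) : ∀ (k : ℕ) (h h' : (Fin (s + 1) → TT F N k) → ℝ),
    (∀ Y, IsFr s k Y → |h Y - h' Y| ≤ e) → |Eav s k h - Eav s k h'| ≤ e
  | 0, h, h', H => H _ IsFr.zero
  | k + 1, h, h', H => by
      show |av _ - av _| ≤ e
      rw [← av_sub]
      exact abs_av_le_of_le fun A => Eav_le s e k _ _ fun Y hY => H _ (IsFr.succ k A Y hY)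

lemma Eav_congr (s : ℕ) : ∀ (k : ℕ) (h h' : (Fin (s + 1) → TT F N k) → ℝ),
    (∀ Y, h Y = h' Y) → Eav s k h = Eav s k h' := by
  intro k h h' H
  rw [funext H]

lemma Eav_av {Ω : Type} [Fintype Ω] (s : ℕ) : ∀ (k : ℕ) (h : Ω → (Fin (s + 1) → TT F N k) → ℝ),
    Eav s k (fun Y => av fun x => h x Y) = av fun x => Eav s k (h x)
  | 0, h => rfl
  | k + 1, h => by
      show av _ = av _
      have : ∀ x, Eav s (k + 1) (h x) =
        av (fun A : Fin (s + 1) → Fin (s + 1) → N → F => Eav s k (fun Y => h x (act A Y))) :=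
        fun x => rfl
      simp only [this]
      rw [av_comm]
      refine av_congr fun A => ?_
      exact Eav_av s k fun x Y => h x (act A Y)

/-- `a ⊗ (b · Y)` -/
def thF {s k : ℕ} (Y : Fin (s + 1) → TT F N k) (a b : Fin (s + 1) → N → F) :
    Fin (s + 1) → TT F N (k + 2) :=
  fun m i => a m (i 0) * ∑ m', b m' (i 1) * Y m' (Fin.tail (Fin.tail i))

/-- `thF` as a biadditive map -/
def thHom {s k : ℕ} (Y : Fin (s + 1) → TT F N k) :
    (Fin (s + 1) → N → F) →+ (Fin (s + 1) → N → F) →+ (Fin (s + 1) → TT F N (k + 2)) where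
  toFun a :=
    { toFun := fun b => thF Y a b
      map_zero' := by funext m i; simp [thF]
      map_add' := by
        intro b b'; funext m i
        simp [thF, add_mul, mul_add, Finset.sum_add_distrib] }
  map_zero' := by
    ext b m i
    simp [thF]
  map_add' := by
    intro a a'
    ext b m i
    simp [thF, add_mul]

lemma act_act_cons {s k : ℕ} (Y : Fin (s + 1) → TT F N k) (a0 b0 : Fin (s + 1) → N → F)
    (a b : Fin s → Fin (s + 1) → N → F) :
    act (fun m => (Fin.cons (a0 m) (fun j => a j m) : Fin (s + 1) → N → F))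
      (act (Fin.cons b0 b : Fin (s + 1) → Fin (s + 1) → N → F) Y) =
      thF Y a0 b0 + ∑ j, thF Y (a j) (b j) := by
  funext m i
  simp only [act, Pi.add_apply, Finset.sum_apply, thF]
  rw [Fin.sum_univ_succ]
  congr 1

/-- splitting off the first column -/
def colEquiv (s : ℕ) (X : Type) : ((Fin (s + 1) → X) × (Fin s → Fin (s + 1) → X)) ≃
    (Fin (s + 1) → Fin (s + 1) → X) where
  toFun q := fun m => Fin.cons (q.1 m) (fun j => q.2 j m)
  invFun A := (fun m => A m 0, fun j m => A m j.succ)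
  left_inv q := by
    rcases q with ⟨a, b⟩
    simp
  right_inv A := by
    funext m j
    refine Fin.cases ?_ (fun j => ?_) j <;> simp

/-- splitting off the first row -/
def rowEquiv (s : ℕ) (X : Type) : (X × (Fin s → X)) ≃ (Fin (s + 1) → X) where
  toFun q := Fin.cons q.1 q.2
  invFun A := (A 0, fun j => A j.succ)
  left_inv q := by
    rcases q with ⟨a, b⟩
    simp
  right_inv A := by
    funext j
    refine Fin.cases ?_ (fun j => ?_) j <;> simp

/-- closure properties of a class of frames -/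
structure Good (s : ℕ) (Yc : ∀ k, (Fin (s + 1) → TT F N k) → Prop) : Prop where
  act : ∀ (k : ℕ) (A : Fin (s + 1) → Fin (s + 1) → N → F) (Y : Fin (s + 1) → TT F N k),
    Yc k Y → Yc (k + 1) (act A Y)
  bil : ∀ (k : ℕ) (Y : Fin (s + 1) → TT F N k), IsFr s k Y → ∀ b : ℕ, b ≤ 2 * s + 1 →
    ∀ (u v : Fin b → Fin (s + 1) → N → F) (Z : V (Fin b × Fin b)),
      Yc (k + 2) (∑ a, if Z a = 0 then 0 else thF Y (u a.1) (v a.2)) ∧
      ∀ x : Fin (k + 2) → N → F,
        Yc (k + 2) ((∑ a, if Z a = 0 then 0 else thF Y (u a.1) (v a.2)) + yx s x)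

lemma act_col_yx {s k : ℕ} (x : Fin (k + 1) → N → F) (a : Fin s → Fin (s + 1) → N → F) :
    act (colEquiv s (N → F) (fun m => if m = 0 then x 0 else 0, a)) (yx s (Fin.tail x)) =
      yx s x := by
  funext m i
  simp only [act, yx, colEquiv, Equiv.coe_fn_mk]
  rw [Fin.sum_univ_succ]
  have h1 : ∀ j : Fin s, (Fin.cons ((if m = 0 then x 0 else 0 : N → F))
      (fun j => a j m) : Fin (s + 1) → N → F) j.succ (i 0) *
      (if (j.succ : Fin (s + 1)) = 0 then tns (Fin.tail x) else 0 : TT F N k) (Fin.tail i) = 0 := by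
    intro j
    rw [if_neg (Fin.succ_ne_zero j)]
    simp
  rw [Finset.sum_eq_zero (fun j _ => h1 j), add_zero]
  simp only [Fin.cons_zero, if_true]
  split_ifs with h
  · simp only [tns]
    rw [Fin.prod_univ_succ]
    rfl
  · simp

/-- base case: one mode -/
lemma absorb_one {s : ℕ} {I : Type} (g : V I → ℝ) (ι : (Fin (s + 1) → TT F N 1) →+ V I)
    (x : Fin 1 → N → F) :
    Eav s 1 (fun Y => g (ι (Y + yx s x))) = Eav s 1 (fun Y => g (ι Y)) := by
  show av _ = av _
  set X : Fin (s + 1) → Fin (s + 1) → N → F :=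
    fun m j => if m = 0 ∧ j = 0 then x 0 else 0 with hX
  have h1 : ∀ A : Fin (s + 1) → Fin (s + 1) → N → F,
      act A (e0 s : Fin (s + 1) → TT F N 0) + yx s x = act (A + X) (e0 s) := by
    intro A
    rw [act_add_left]
    congr 1
    funext m i
    simp only [act, yx, e0, hX]
    rw [Finset.sum_eq_single 0]
    · by_cases hm : m = 0
      · simp [hm, tns]
      · simp [hm]
    · intro j _ hj
      simp [hj]
    · intro h; exact absurd (Finset.mem_univ _) h
  have h2 : av (fun A : Fin (s + 1) → Fin (s + 1) → N → F =>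
      Eav s 0 (fun Y => g (ι (act A Y + yx s x)))) =
      av (fun A : Fin (s + 1) → Fin (s + 1) → N → F => g (ι (act (A + X) (e0 s)))) := by
    refine av_congr fun A => ?_
    show g (ι (act A (e0 s) + yx s x)) = _
    rw [h1]
  rw [h2]
  exact av_equiv (Equiv.addRight X)
    (fun A : Fin (s + 1) → Fin (s + 1) → N → F => g (ι (act A (e0 s))))

end frames

/-- the F_2-structure on cores -/
def coreEquiv {F N κ : Type} [AddCommGroup F] (s : ℕ) (eF : F ≃+ V κ) :
    (Fin (s + 1) → N → F) ≃+ V ((Fin (s + 1) × N) × κ) where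
  toFun x := fun q => eF (x q.1.1 q.1.2) q.2
  invFun v := fun m i => eF.symm (fun t => v ((m, i), t))
  left_inv x := by funext m i; simp
  right_inv v := by funext q; simp
  map_add' x y := by funext q; simp

lemma smul_iota {X : Type} {I : Type} [AddCommGroup X] (ι : X →+ V I) (z : ZMod 2) (x : X) :
    z • ι x = ι (if z = 0 then 0 else x) := by
  rcases zmod2_cases z with rfl | rfl <;> simp

/-- **absorption of a rank one tensor by a random tensor train** -/
theorem absorb_main (hAbs : SpecAbs) (r : ℝ) (hr : 2 < r) : ∃ c C : ℝ, 0 < c ∧ 0 < C ∧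
    ∀ (F N κ I : Type) [Field F] [Fintype F] [DecidableEq F] [Fintype N] [DecidableEq N]
      [Fintype κ] [DecidableEq κ] (_ : F ≃+ V κ) (s : ℕ), 1 ≤ s →
      ∀ (Yc : ∀ k, (Fin (s + 1) → TT F N k) → Prop), Good s Yc →
      ∀ (K : V I → Prop) (g : V I → ℝ) (D η : ℝ), 0 ≤ η →
      (∀ ξ, K ξ → |g ξ| ≤ D) →
      (∀ b : ℕ, b ≤ 2 * s + 1 → ∀ (Φ : V (Fin b × Fin b) →+ V I) (ξ₀ : V I),
        (∀ Z, K (ξ₀ + Φ Z)) → ∀ ω : V (Fin b × Fin b) → ℝ,
        |∑ Z, ω Z * g (ξ₀ + Φ Z)| ≤
          D * (∑ z, |hat ω z| ^ r) ^ (1 / r) + η * ∑ Z, |ω Z|) →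
      ∀ (k : ℕ) (ι : (Fin (s + 1) → TT F N (k + 1)) →+ V I),
        (∀ Y, Yc (k + 1) Y → K (ι Y)) → ∀ x : Fin (k + 1) → N → F,
        |Eav s (k + 1) (fun Y => g (ι (Y + yx s x))) - Eav s (k + 1) (fun Y => g (ι Y))| ≤
          4 * k * (C * D * (2 : ℝ) ^ (-c * s) + 2 * η) := by
  obtain ⟨c, C, hc, hC, habs⟩ := abs_gen hAbs r hr
  refine ⟨c, C, hc, hC, ?_⟩
  intro F N κ I _ _ _ _ _ _ _ eF s hs Yc hYc K g D η hη hKD hKK k
  set e : ℝ := C * D * (2 : ℝ) ^ (-c * s) + 2 * η with he
  induction k with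
  | zero =>
    intro ι hι x
    rw [absorb_one, sub_self, abs_zero]
    simp
  | succ k ih =>
    intro ι hι x
    -- the bound for fixed frames
    have key : ∀ (Y : Fin (s + 1) → TT F N k), IsFr s k Y →
        ∀ ζ : Fin (s + 1) → TT F N (k + 2), (ζ = 0 ∨ ζ = yx s x) →
        ∀ a0 b0 : Fin (s + 1) → N → F,
        |av (fun q : (Fin s → Fin (s + 1) → N → F) × (Fin s → Fin (s + 1) → N → F) =>
          g (ι ((thF Y a0 b0 + ∑ j, thF Y (q.1 j) (q.2 j)) + ζ))) -
        av (fun q : (Fin s → Fin (s + 1) → N → F) × (Fin s → Fin (s + 1) → N → F) =>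
          g (ι ((∑ j, thF Y (q.1 j) (q.2 j)) + ζ)))| ≤ e := by
      intro Y hY ζ hζ a0 b0
      set θ : (Fin (s + 1) → N → F) →+ (Fin (s + 1) → N → F) →+ V I :=
        { toFun := fun a => ι.comp (thHom Y a)
          map_zero' := by
            ext b t
            simp
          map_add' := by
            intro a a'
            ext b t
            simp } with hθ
      have hθ' : ∀ a b, θ a b = ι (thF Y a b) := fun a b => rfl
      have hmem : ∀ b : ℕ, b ≤ 2 * s + 1 → ∀ (u v : Fin b → Fin (s + 1) → N → F)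
          (Z : V (Fin b × Fin b)),
          K (ι ζ + ∑ a : Fin b × Fin b, Z a • θ (u a.1) (v a.2)) := by
        intro b hb u v Z
        have h1 : ι ζ + ∑ a : Fin b × Fin b, Z a • θ (u a.1) (v a.2) =
            ι ((∑ a, if Z a = 0 then 0 else thF Y (u a.1) (v a.2)) + ζ) := by
          rw [map_add, map_sum, add_comm]
          congr 1
          refine Finset.sum_congr rfl fun a _ => ?_
          rw [hθ', smul_iota]
        rw [h1]
        rcases hζ with h | h
        · rw [h, add_zero]
          exact hι _ (hYc.bil k Y hY b hb u v Z).1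
        · rw [h]
          exact hι _ ((hYc.bil k Y hY b hb u v Z).2 x)
      have h2 := habs s hs (Fin (s + 1) → N → F) (Fin (s + 1) → N → F) _ _ I
        (coreEquiv s eF) (coreEquiv s eF) θ (ι ζ) g D η hη
        (fun a c' => by
          apply hKD
          have h3 := hmem (s + 1) (by omega) a c' (fun q => if q.1 = q.2 then 1 else 0)
          have h4 : ∑ q : Fin (s + 1) × Fin (s + 1),
              ((if q.1 = q.2 then (1 : ZMod 2) else 0) • θ (a q.1) (c' q.2)) =
              ∑ j, θ (a j) (c' j) := by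
            rw [Fintype.sum_prod_type]
            refine Finset.sum_congr rfl fun j _ => ?_
            simp [ite_smul]
          rw [h4] at h3
          exact h3)
        (fun b hb u v ω => by
          let Φ : V (Fin b × Fin b) →+ V I :=
            { toFun := fun Z => ∑ a : Fin b × Fin b, Z a • θ (u a.1) (v a.2)
              map_zero' := by simp
              map_add' := by
                intro Z Z'
                simp [add_smul, Finset.sum_add_distrib] }
          exact hKK b hb Φ (ι ζ) (fun Z => hmem b hb u v Z) ω)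
        a0 b0
      have h5 : ∀ q : (Fin s → Fin (s + 1) → N → F) × (Fin s → Fin (s + 1) → N → F),
          ι ζ + θ a0 b0 + ∑ j, θ (q.1 j) (q.2 j) =
          ι ((thF Y a0 b0 + ∑ j, thF Y (q.1 j) (q.2 j)) + ζ) := by
        intro q
        simp only [hθ', map_add, map_sum]
        abel
      have h6 : ∀ q : (Fin s → Fin (s + 1) → N → F) × (Fin s → Fin (s + 1) → N → F),
          ι ζ + ∑ j, θ (q.1 j) (q.2 j) = ι ((∑ j, thF Y (q.1 j) (q.2 j)) + ζ) := by
        intro q
        simp only [hθ', map_add, map_sum]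
        abel
      simp only [h5, h6] at h2
      exact h2
    -- the common value
    set U : (Fin (s + 1) → TT F N (k + 2)) → ℝ := fun ζ => Eav s k (fun Y =>
      av (fun q : (Fin s → Fin (s + 1) → N → F) × (Fin s → Fin (s + 1) → N → F) =>
          g (ι ((∑ j, thF Y (q.1 j) (q.2 j)) + ζ)))) with hU
    have key2 : ∀ ζ : Fin (s + 1) → TT F N (k + 2), (ζ = 0 ∨ ζ = yx s x) →
        ∀ a0 : Fin (s + 1) → N → F,
        |av (fun a : Fin s → Fin (s + 1) → N → F => Eav s (k + 1) (fun Y =>
          g (ι (act (colEquiv s (N → F) (a0, a)) Y + ζ)))) - U ζ| ≤ e := by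
      intro ζ hζ a0
      have h1 : av (fun a : Fin s → Fin (s + 1) → N → F => Eav s (k + 1) (fun Y =>
          g (ι (act (colEquiv s (N → F) (a0, a)) Y + ζ)))) =
          Eav s k (fun Y => av (fun b0 : Fin (s + 1) → N → F =>
            av (fun q : (Fin s → Fin (s + 1) → N → F) × (Fin s → Fin (s + 1) → N → F) =>
              g (ι ((thF Y a0 b0 + ∑ j, thF Y (q.1 j) (q.2 j)) + ζ))))) := by
        have h2 : ∀ a : Fin s → Fin (s + 1) → N → F, Eav s (k + 1) (fun Y =>
            g (ι (act (colEquiv s (N → F) (a0, a)) Y + ζ))) =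
            av (fun b0 : Fin (s + 1) → N → F => av (fun b : Fin s → Fin (s + 1) → N → F =>
              Eav s k (fun Y => g (ι ((thF Y a0 b0 + ∑ j, thF Y (a j) (b j)) + ζ))))) := by
          intro a
          have h3 : Eav s (k + 1) (fun Y =>
            g (ι (act (colEquiv s (N → F) (a0, a)) Y + ζ))) =
            av (fun A : Fin (s + 1) → Fin (s + 1) → N → F => Eav s k (fun Y =>
              g (ι (act (colEquiv s (N → F) (a0, a)) (act A Y) + ζ)))) := rfl
          rw [h3, ← av_equiv (rowEquiv s (Fin (s + 1) → N → F)), av_prod]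
          refine av_congr fun b0 => av_congr fun b => ?_
          refine Eav_congr s k _ _ fun Y => ?_
          have h4 := act_act_cons Y a0 b0 a b
          have h5 : act (colEquiv s (N → F) (a0, a))
              (act (rowEquiv s (Fin (s + 1) → N → F) (b0, b)) Y) =
              thF Y a0 b0 + ∑ j, thF Y (a j) (b j) := h4
          rw [h5]
        simp only [h2]
        rw [av_comm]
        have h6 : ∀ b0 : Fin (s + 1) → N → F,
            av (fun a : Fin s → Fin (s + 1) → N → F => av (fun b : Fin s → Fin (s + 1) → N → F =>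
              Eav s k (fun Y => g (ι ((thF Y a0 b0 + ∑ j, thF Y (a j) (b j)) + ζ))))) =
            Eav s k (fun Y => av (fun q : (Fin s → Fin (s + 1) → N → F) ×
              (Fin s → Fin (s + 1) → N → F) =>
              g (ι ((thF Y a0 b0 + ∑ j, thF Y (q.1 j) (q.2 j)) + ζ)))) := by
          intro b0
          rw [Eav_av, av_prod]
        simp only [h6]
        rw [Eav_av]
      rw [h1, hU]
      refine Eav_le s e k _ _ fun Y hY => ?_
      have h7 : av (fun q : (Fin s → Fin (s + 1) → N → F) × (Fin s → Fin (s + 1) → N → F) =>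
          g (ι ((∑ j, thF Y (q.1 j) (q.2 j)) + ζ))) =
          av (fun _ : Fin (s + 1) → N → F =>
            av (fun q : (Fin s → Fin (s + 1) → N → F) × (Fin s → Fin (s + 1) → N → F) =>
              g (ι ((∑ j, thF Y (q.1 j) (q.2 j)) + ζ)))) := (av_const _).symm
      rw [h7, ← av_sub]
      exact abs_av_le_of_le fun b0 => key Y hY ζ hζ a0 b0
    have key3 : ∀ ζ : Fin (s + 1) → TT F N (k + 2), (ζ = 0 ∨ ζ = yx s x) →
        |Eav s (k + 2) (fun Y => g (ι (Y + ζ))) -
          av (fun a : Fin s → Fin (s + 1) → N → F => Eav s (k + 1) (fun Y =>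
            g (ι (act (colEquiv s (N → F) (fun m => if m = 0 then x 0 else 0, a)) Y + ζ))))| ≤
          2 * e := by
      intro ζ hζ
      have h1 : |Eav s (k + 2) (fun Y => g (ι (Y + ζ))) - U ζ| ≤ e := by
        have h2 : Eav s (k + 2) (fun Y => g (ι (Y + ζ))) =
            av (fun a0 : Fin (s + 1) → N → F => av (fun a : Fin s → Fin (s + 1) → N → F =>
              Eav s (k + 1) (fun Y =>
                g (ι (act (colEquiv s (N → F) (a0, a)) Y + ζ))))) := by
          have h3 : Eav s (k + 2) (fun Y => g (ι (Y + ζ))) =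
            av (fun A : Fin (s + 1) → Fin (s + 1) → N → F => Eav s (k + 1) (fun Y =>
              g (ι (act A Y + ζ)))) := rfl
          rw [h3, ← av_equiv (colEquiv s (N → F)), av_prod]
        have h4 : U ζ = av (fun _ : Fin (s + 1) → N → F => U ζ) := (av_const _).symm
        rw [h2, h4, ← av_sub]
        exact abs_av_le_of_le fun a0 => key2 ζ hζ a0
      have h5 := key2 ζ hζ (fun m => if m = 0 then x 0 else 0)
      calc _ ≤ _ := abs_sub_le _ (U ζ) _
        _ ≤ e + e := add_le_add h1 (by rw [abs_sub_comm]; exact h5)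
        _ = 2 * e := by ring
    have e1 := key3 0 (Or.inl rfl)
    have e2 := key3 (yx s x) (Or.inr rfl)
    have e3 : |av (fun a : Fin s → Fin (s + 1) → N → F => Eav s (k + 1) (fun Y =>
            g (ι (act (colEquiv s (N → F) (fun m => if m = 0 then x 0 else 0, a)) Y +
              yx s x)))) -
          av (fun a : Fin s → Fin (s + 1) → N → F => Eav s (k + 1) (fun Y =>
            g (ι (act (colEquiv s (N → F) (fun m => if m = 0 then x 0 else 0, a)) Y + 0))))| ≤
          4 * k * e := by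
      rw [← av_sub]
      refine abs_av_le_of_le fun a => ?_
      set A : Fin (s + 1) → Fin (s + 1) → N → F :=
        colEquiv s (N → F) (fun m => if m = 0 then x 0 else 0, a) with hA
      have h1 := ih (ι.comp (actHom (k + 1) A)) (fun Y hY => hι _ (hYc.act (k + 1) A Y hY))
        (Fin.tail x)
      have h2 : ∀ Y : Fin (s + 1) → TT F N (k + 1),
          (ι.comp (actHom (k + 1) A)) (Y + yx s (Fin.tail x)) = ι (act A Y + yx s x) := by
        intro Y
        show ι (act A (Y + yx s (Fin.tail x))) = _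
        rw [act_add, hA, act_col_yx]
      have h3 : ∀ Y : Fin (s + 1) → TT F N (k + 1),
          (ι.comp (actHom (k + 1) A)) Y = ι (act A Y + 0) := by
        intro Y
        rw [add_zero]; rfl
      simp only [h2, h3] at h1
      exact h1
    simp only [add_zero] at e1 e3
    push_cast
    rw [abs_le] at e1 e2 e3 ⊢
    constructor <;> nlinarith [e1.1, e1.2, e2.1, e2.2, e3.1, e3.2]

end Vale.Agent.P249.H200
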