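import Mathlib

/-!
# P249 phase 2, block ABS: Fourier transform of a sum of random rank one matrices over `ZMod 2`
and counting matrices by rank.
-/

open Finset Matrix
open scoped BigOperators

namespace Vale.Agent.P249.H200

/-- the sign character of `ZMod 2` -/
noncomputable def e (a : ZMod 2) : ℝ := if a = 0 then 1 else -1

theorem e_zero : e 0 = 1 := by simp [e]

theorem e_one : e 1 = -1 := by simp [e]

theorem zcases (a : ZMod 2) : a = 0 ∨ a = 1 := by
  revert a; decide

theorem one_add_one : (1 : ZMod 2) + 1 = 0 := by decide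

theorem e_add (a b : ZMod 2) : e (a + b) = e a * e b := by
  rcases zcases a with rfl | rfl <;> rcases zcases b with rfl | rfl <;>
    simp [e_zero, e_one, one_add_one]

theorem e_mul_self (a : ZMod 2) : e a * e a = 1 := by
  rcases zcases a with rfl | rfl <;> simp [e_zero, e_one]

theorem abs_e (a : ZMod 2) : |e a| = 1 := by
  rcases zcases a with rfl | rfl <;> simp [e_zero, e_one]

theorem e_sum {α : Type*} (s : Finset α) (f : α → ZMod 2) : e (∑ i ∈ s, f i) = ∏ i ∈ s, e (f i) := by
  classical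
  induction s using Finset.induction_on with
  | empty => simp [e_zero]
  | insert a s ha ih => rw [Finset.sum_insert ha, Finset.prod_insert ha, e_add, ih]

theorem sum_e : ∑ a : ZMod 2, e a = 0 := by
  have h : (univ : Finset (ZMod 2)) = {0, 1} := by decide
  rw [h, Finset.sum_pair (by decide), e_zero, e_one]; norm_num

/-- orthogonality of characters -/
theorem sum_e_dot {α : Type*} [Fintype α] [DecidableEq α] (v : α → ZMod 2) :
    ∑ x : α → ZMod 2, e (x ⬝ᵥ v) = if v = 0 then (2 : ℝ) ^ Fintype.card α else 0 := by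
  have h1 : ∀ x : α → ZMod 2, e (x ⬝ᵥ v) = ∏ i, e (x i * v i) := by
    intro x; rw [dotProduct, e_sum]
  simp_rw [h1]
  rw [← Fintype.prod_sum (fun (i : α) (a : ZMod 2) => e (a * v i))]
  split_ifs with h
  · subst h
    have : ∀ i : α, ∑ a : ZMod 2, e (a * (0 : α → ZMod 2) i) = 2 := by
      intro i
      simp [e_zero, ZMod.card]
    rw [Finset.prod_congr rfl (fun i _ => this i)]
    simp
  · obtain ⟨i, hi⟩ : ∃ i, v i ≠ 0 := by
      by_contra hcon
      push Not at hcon
      exact h (funext hcon)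
    apply Finset.prod_eq_zero (Finset.mem_univ i)
    have hvi : v i = 1 := by
      have : ∀ a : ZMod 2, a ≠ 0 → a = 1 := by decide
      exact this _ hi
    rw [hvi]; simp only [mul_one]; exact sum_e

/-- number of solutions of `A x = 0` -/
theorem card_ker {α β : Type*} [Fintype α] [Fintype β] [DecidableEq β]
    (A : Matrix α β (ZMod 2)) :
    (2 : ℝ) ^ A.rank * ((univ.filter fun b : β → ZMod 2 => A *ᵥ b = 0).card : ℝ) =
      (2 : ℝ) ^ Fintype.card β := by
  classical
  have h1 := LinearMap.finrank_range_add_finrank_ker A.mulVecLin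
  have h2 : (univ.filter fun b : β → ZMod 2 => A *ᵥ b = 0).card =
      Fintype.card (LinearMap.ker A.mulVecLin) := by
    rw [Fintype.card_subtype]
    congr 1
    ext b
    simp
  rw [h2, Module.card_eq_pow_finrank (K := ZMod 2)]
  rw [Module.finrank_fintype_fun_eq_card] at h1
  have h3 : Module.finrank (ZMod 2) (LinearMap.range A.mulVecLin) = A.rank := rfl
  rw [h3] at h1
  rw [← h1, ZMod.card]
  push_cast
  rw [pow_add]

theorem sum_e_rank_one {α β : Type*} [Fintype α] [Fintype β] [DecidableEq α] [DecidableEq β]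
    (A : Matrix α β (ZMod 2)) :
    (2 : ℝ) ^ A.rank * ∑ x : α → ZMod 2, ∑ y : β → ZMod 2, e (x ⬝ᵥ A *ᵥ y) =
      (2 : ℝ) ^ (Fintype.card α + Fintype.card β) := by
  rw [Finset.sum_comm]
  simp_rw [sum_e_dot]
  rw [← Finset.sum_filter, Finset.sum_const, nsmul_eq_mul, ← mul_assoc, card_ker, pow_add, mul_comm]

/-- **Fourier transform of a sum of `s` random rank one matrices**. -/
theorem sum_e_ranks {α β : Type*} [Fintype α] [Fintype β] [DecidableEq α] [DecidableEq β]
    (s : ℕ) (A : Matrix α β (ZMod 2)) :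
    (2 : ℝ) ^ (A.rank * s) * ∑ x : Fin s → α → ZMod 2, ∑ y : Fin s → β → ZMod 2,
        e (∑ j, x j ⬝ᵥ A *ᵥ y j) =
      (2 : ℝ) ^ ((Fintype.card α + Fintype.card β) * s) := by
  have h1 : ∑ x : Fin s → α → ZMod 2, ∑ y : Fin s → β → ZMod 2, e (∑ j, x j ⬝ᵥ A *ᵥ y j) =
      (∑ x : α → ZMod 2, ∑ y : β → ZMod 2, e (x ⬝ᵥ A *ᵥ y)) ^ s := by
    simp_rw [e_sum]
    have h2 : ∀ x : Fin s → α → ZMod 2, ∑ y : Fin s → β → ZMod 2, ∏ j, e (x j ⬝ᵥ A *ᵥ y j) =
        ∏ j, ∑ y : β → ZMod 2, e (x j ⬝ᵥ A *ᵥ y) := by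
      intro x
      rw [← Fintype.prod_sum (fun (j : Fin s) (y : β → ZMod 2) => e (x j ⬝ᵥ A *ᵥ y))]
    simp_rw [h2]
    rw [← Fintype.prod_sum (fun (_ : Fin s) (x : α → ZMod 2) => ∑ y : β → ZMod 2, e (x ⬝ᵥ A *ᵥ y))]
    simp
  rw [h1, pow_mul, ← mul_pow, sum_e_rank_one, ← pow_mul]

/-- rank factorisation -/
theorem exists_factor {α β : Type*} [Fintype α] [Fintype β] [DecidableEq β]
    (A : Matrix α β (ZMod 2)) :
    ∃ (B : Matrix α (Fin A.rank) (ZMod 2)) (C : Matrix (Fin A.rank) β (ZMod 2)), A = B * C := by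
  classical
  let b : Module.Basis (Fin A.rank) (ZMod 2) (LinearMap.range A.mulVecLin) :=
    Module.finBasisOfFinrankEq _ _ rfl
  refine ⟨Matrix.of fun a i => (b i : α → ZMod 2) a,
    Matrix.of fun i j => b.repr ⟨A.mulVecLin (Pi.single j 1), LinearMap.mem_range_self _ _⟩ i, ?_⟩
  ext a j
  have h := congrArg (fun v : LinearMap.range A.mulVecLin => (v : α → ZMod 2) a)
    (b.sum_repr ⟨A.mulVecLin (Pi.single j 1), LinearMap.mem_range_self _ _⟩)
  simp only [Submodule.coe_sum, Submodule.coe_smul, Finset.sum_apply, Pi.smul_apply,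
    smul_eq_mul, mulVecLin_apply] at h
  rw [Matrix.mul_apply]
  have h2 : (A *ᵥ Pi.single j 1) a = A a j := by simp
  rw [← h2, ← h]
  refine Finset.sum_congr rfl fun i _ => ?_
  rw [mul_comm]; rfl

/-- number of matrices of rank `ρ` -/
theorem card_rank {α β : Type*} [Fintype α] [Fintype β] [DecidableEq α] [DecidableEq β] (ρ : ℕ) :
    (univ.filter fun A : Matrix α β (ZMod 2) => A.rank = ρ).card ≤
      2 ^ (ρ * (Fintype.card α + Fintype.card β)) := by
  classical
  have h1 : (univ.filter fun A : Matrix α β (ZMod 2) => A.rank = ρ) ⊆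
      (univ : Finset (Matrix α (Fin ρ) (ZMod 2) × Matrix (Fin ρ) β (ZMod 2))).image
        (fun q => q.1 * q.2) := by
    intro A hA
    rw [Finset.mem_filter] at hA
    obtain ⟨B, C, hBC⟩ := exists_factor A
    rw [Finset.mem_image]
    have h := hA.2
    subst h
    exact ⟨(B, C), Finset.mem_univ _, hBC.symm⟩
  refine (Finset.card_le_card h1).trans (Finset.card_image_le.trans (le_of_eq ?_))
  rw [Finset.card_univ, Fintype.card_prod]
  have h2 : Fintype.card (Matrix α (Fin ρ) (ZMod 2)) = 2 ^ (Fintype.card α * ρ) := by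
    show Fintype.card (α → Fin ρ → ZMod 2) = _
    rw [Fintype.card_fun, Fintype.card_fun, ZMod.card, Fintype.card_fin, ← pow_mul, mul_comm]
  have h3 : Fintype.card (Matrix (Fin ρ) β (ZMod 2)) = 2 ^ (ρ * Fintype.card β) := by
    show Fintype.card (Fin ρ → β → ZMod 2) = _
    rw [Fintype.card_fun, Fintype.card_fun, ZMod.card, Fintype.card_fin, ← pow_mul, mul_comm]
  rw [h2, h3, ← pow_add]
  congr 1
  ring

theorem rank_zero_imp {α β : Type*} [Fintype α] [Fintype β] [DecidableEq β]
    (A : Matrix α β (ZMod 2)) (h : A.rank = 0) : A = 0 := by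
  obtain ⟨B, C, hBC⟩ := exists_factor A
  have : IsEmpty (Fin A.rank) := by rw [h]; infer_instance
  rw [hBC]
  ext a j
  rw [Matrix.mul_apply]
  simp

theorem sum_rank_pow {α β : Type*} [Fintype α] [Fintype β] [DecidableEq α] [DecidableEq β]
    (x : ℝ) (hx : 0 ≤ x) (hx2 : (2 : ℝ) ^ (Fintype.card α + Fintype.card β) * x ≤ 1 / 2) :
    ∑ A ∈ univ.filter (fun A : Matrix α β (ZMod 2) => A ≠ 0), x ^ A.rank ≤
      2 * ((2 : ℝ) ^ (Fintype.card α + Fintype.card β) * x) := by
  classical
  set y : ℝ := (2 : ℝ) ^ (Fintype.card α + Fintype.card β) * x with hy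
  have hy0 : 0 ≤ y := by positivity
  have h1 : ∑ A ∈ univ.filter (fun A : Matrix α β (ZMod 2) => A ≠ 0), x ^ A.rank =
      ∑ ρ ∈ Finset.range (Fintype.card β), ∑ A ∈ (univ.filter
        (fun A : Matrix α β (ZMod 2) => A ≠ 0)).filter (fun A => A.rank = ρ + 1), x ^ A.rank := by
    rw [← Finset.sum_fiberwise_of_maps_to (s := univ.filter (fun A : Matrix α β (ZMod 2) => A ≠ 0))
      (t := (Finset.range (Fintype.card β)).image (fun ρ => ρ + 1)) (g := fun A => A.rank)]
    · rw [Finset.sum_image (fun a _ b _ h => by simpa using h)]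
    · intro A hA
      rw [Finset.mem_filter] at hA
      have h2 : A.rank ≠ 0 := by
        intro h0
        exact hA.2 (rank_zero_imp A h0)
      have h3 : A.rank ≤ Fintype.card β := Matrix.rank_le_card_width A
      rw [Finset.mem_image]
      exact ⟨A.rank - 1, Finset.mem_range.mpr (by omega), by omega⟩
  rw [h1]
  have h2 : ∀ ρ ∈ Finset.range (Fintype.card β), ∑ A ∈ (univ.filter
        (fun A : Matrix α β (ZMod 2) => A ≠ 0)).filter (fun A => A.rank = ρ + 1), x ^ A.rank ≤
        y * (1 / 2) ^ ρ := by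
    intro ρ _
    have h3 : ∑ A ∈ (univ.filter
        (fun A : Matrix α β (ZMod 2) => A ≠ 0)).filter (fun A => A.rank = ρ + 1), x ^ A.rank =
        (((univ.filter (fun A : Matrix α β (ZMod 2) => A ≠ 0)).filter
          (fun A => A.rank = ρ + 1)).card : ℝ) * x ^ (ρ + 1) := by
      rw [Finset.sum_congr rfl (g := fun _ => x ^ (ρ + 1))
        (fun A hA => by rw [(Finset.mem_filter.mp hA).2]), Finset.sum_const, nsmul_eq_mul]
    rw [h3]
    have h4 : (((univ.filter (fun A : Matrix α β (ZMod 2) => A ≠ 0)).filter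
          (fun A => A.rank = ρ + 1)).card : ℝ) ≤
          (2 : ℝ) ^ ((ρ + 1) * (Fintype.card α + Fintype.card β)) := by
      have h5 := card_rank (α := α) (β := β) (ρ + 1)
      have h6 : (((univ.filter (fun A : Matrix α β (ZMod 2) => A ≠ 0)).filter
          (fun A => A.rank = ρ + 1)).card) ≤
          (univ.filter fun A : Matrix α β (ZMod 2) => A.rank = ρ + 1).card := by
        apply Finset.card_le_card
        intro A hA
        rw [Finset.mem_filter] at hA ⊢
        exact ⟨Finset.mem_univ _, hA.2⟩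
      exact_mod_cast h6.trans h5
    calc _ ≤ (2 : ℝ) ^ ((ρ + 1) * (Fintype.card α + Fintype.card β)) * x ^ (ρ + 1) :=
          mul_le_mul_of_nonneg_right h4 (by positivity)
      _ = y ^ (ρ + 1) := by
          rw [hy, mul_pow, ← pow_mul, mul_comm (ρ + 1)]
      _ = y * y ^ ρ := by rw [pow_succ, mul_comm]
      _ ≤ y * (1 / 2) ^ ρ := by
          apply mul_le_mul_of_nonneg_left _ hy0
          exact pow_le_pow_left₀ hy0 hx2 _
  refine (Finset.sum_le_sum h2).trans ?_
  rw [← Finset.mul_sum, mul_comm 2 y]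
  apply mul_le_mul_of_nonneg_left _ hy0
  have h7 := (Finset.sum_range_succ (fun ρ => ((1 : ℝ) / 2) ^ ρ) (Fintype.card β))
  have h8 : ∀ N : ℕ, ∑ ρ ∈ Finset.range N, ((1 : ℝ) / 2) ^ ρ ≤ 2 := by
    intro N
    have h9 : ∑ ρ ∈ Finset.range N, ((1 : ℝ) / 2) ^ ρ = 2 - 2 * (1 / 2) ^ N := by
      induction N with
      | zero => simp
      | succ N ih => rw [Finset.sum_range_succ, ih, pow_succ]; ring
    rw [h9]
    have : (0 : ℝ) ≤ (1 / 2) ^ N := by positivity
    linarith
  exact h8 _

end Vale.Agent.P249.H200
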