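import Vale.Agent.P249.H200.RankF

/-!
# P249 phase 2, block ABS: the total variation lemma
-/

open Finset Matrix
open scoped BigOperators

namespace Vale.Agent.P249.H200

theorem card_fiber_surj {G H : Type*} [AddCommGroup G] [AddCommGroup H] [Fintype G]
    [DecidableEq H] (L : G →+ H) (hL : Function.Surjective L) (h : H) :
    (univ.filter fun g : G => L g = h).card = (univ.filter fun g : G => L g = 0).card := by
  classical
  obtain ⟨g₀, hg₀⟩ := hL h
  refine Finset.card_bij (fun g _ => g - g₀) ?_ ?_ ?_
  · intro g hg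
    rw [Finset.mem_filter] at hg ⊢
    exact ⟨Finset.mem_univ _, by rw [map_sub, hg.2, hg₀, sub_self]⟩
  · intro a _ b _ hab
    exact sub_left_injective hab
  · intro b hb
    rw [Finset.mem_filter] at hb
    refine ⟨b + g₀, ?_, by simp⟩
    rw [Finset.mem_filter]
    exact ⟨Finset.mem_univ _, by rw [map_add, hb.2, hg₀, zero_add]⟩

theorem card_mul_ker {G H : Type*} [AddCommGroup G] [AddCommGroup H] [Fintype G] [Fintype H]
    [DecidableEq H] (L : G →+ H) (hL : Function.Surjective L) :
    Fintype.card H * (univ.filter fun g : G => L g = 0).card = Fintype.card G := by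
  classical
  have h1 : (univ : Finset G).card = ∑ h : H, (univ.filter fun g : G => L g = h).card :=
    Finset.card_eq_sum_card_fiberwise (fun g _ => Finset.mem_univ _)
  rw [Finset.card_univ] at h1
  rw [h1, Finset.sum_congr rfl (fun h _ => card_fiber_surj L hL h), Finset.sum_const,
    Finset.card_univ, smul_eq_mul]

/-- averaging over a surjective homomorphism of finite groups -/
theorem sum_comp_surj {G H : Type*} [AddCommGroup G] [AddCommGroup H] [Fintype G] [Fintype H]
    [DecidableEq H] (L : G →+ H) (hL : Function.Surjective L) (F : H → ℝ) :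
    (Fintype.card H : ℝ) * ∑ g, F (L g) = Fintype.card G * ∑ h, F h := by
  classical
  have h1 : ∑ g, F (L g) = ∑ h : H, ∑ g ∈ univ.filter (fun g : G => L g = h), F (L g) :=
    (Finset.sum_fiberwise_of_maps_to (fun g _ => Finset.mem_univ _) _).symm
  have h2 : ∀ h : H, ∑ g ∈ univ.filter (fun g : G => L g = h), F (L g) =
      ((univ.filter fun g : G => L g = 0).card : ℝ) * F h := by
    intro h
    rw [Finset.sum_congr rfl (g := fun _ => F h)
      (fun g hg => by rw [(Finset.mem_filter.mp hg).2]), Finset.sum_const, nsmul_eq_mul,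
      card_fiber_surj L hL]
  rw [h1, Finset.sum_congr rfl (fun h _ => h2 h), ← Finset.mul_sum, ← mul_assoc]
  congr 1
  exact_mod_cast card_mul_ker L hL

theorem surj_of_indep {α : Type*} [Fintype α] [DecidableEq α] (s : ℕ) (A : Fin s → α → ZMod 2)
    (hA : ∀ c : Fin s → ZMod 2, ∑ j, c j • A j = 0 → c = 0) (y : Fin s → ZMod 2) :
    ∃ x : α → ZMod 2, ∀ j, x ⬝ᵥ A j = y j := by
  classical
  have h1 : LinearIndependent (ZMod 2) A := by
    rw [Fintype.linearIndependent_iff]
    intro g hg i
    rw [hA g hg]; rfl
  have h2 : (Matrix.of A).rank = s := by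
    have := h1.rank_matrix (M := Matrix.of A)
    simpa using this
  have h3 : LinearMap.range (Matrix.of A).mulVecLin = ⊤ := by
    apply Submodule.eq_top_of_finrank_eq
    rw [Module.finrank_fintype_fun_eq_card, Fintype.card_fin]
    exact h2
  obtain ⟨x, hx⟩ : ∃ x, (Matrix.of A).mulVecLin x = y := by
    rw [← LinearMap.mem_range, h3]; trivial
  refine ⟨x, fun j => ?_⟩
  rw [← hx, mulVecLin_apply, dotProduct_comm]
  rfl

end Vale.Agent.P249.H200
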